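import Vale.Agent.P154.D4.K0.Charts

set_option maxRecDepth 100000

namespace Vale.Agent.P154.D4.K0

open Cert InT OutT

/-- Certificate tree. -/
def tr10_r1 : OutT :=
(A (B (A (B (A (B (A (O (c (c l (c l l)) (c (c (c l l) (d l l)) (d (c k k) (c (d (c l l) l) (d (c k k) (c l (d (d k l) l)))))))) (B (O (c (c l (c l l)) (c (c (c l l) (d l l)) (d (c k k) (c (d (c l l) l) (d (c k k) (c (c l l) (d (c k k) (c l l))))))))) (A (O (c (c l (c l l)) (c (d (c l l) (c l l)) (d (c k k) (c (d l l) (d (d k l) l)))))) (O (c (c l (c l l)) (c (d (c l l) (c l l)) (d (c k k) (c (d l l) (d (d k (c k k)) (c l l)))))))))) (A (O (c (c l (c l l)) (c (c (c l l) (d l l)) (d (c k k) (c (d (c l l) l) (d (c k k) (c (c l l) (d (d k (c k k)) (c l l))))))))) (B (A (O (c (c l (c l l)) (c (d (c l l) (c l l)) (d (c k k) (c (d l l) (d (d k l) (c l l))))))) (O (c (c l (c l l)) (c (d (d l l) (c l l)) (d (c k k) (c (d l l) (d (d k (c k k)) (c l l)))))))) (A (O (c (c l (c l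 l)) (c (d (c l l) (c l l)) (d (c k k) (c (d l l) (d (d k (c k k)) (c l l))))))) (O (c (c l (c l l)) (c (d (d l l) (c l l)) (d (c k k) (c (d l l) (d (d k (c k k)) (c l l))))))))))) (B (A (B (A (O (c (c l (c l l)) (c (d (d l l) (c l l)) (d (c k k) (c (d l l) (d (d k (c k k)) (c l l))))))) s) (A (O (c (c l (c l l)) (c (d (d (c l l) l) (c l l)) (d (c k k) (c (d l l) (d (d k (c k k)) (d l l))))))) s)) s) (A (B (A (O (c (c l (c l l)) (c (d (d (d l l) l) (c l l)) (d (c k k) (c (d (c l l) l) (d (d k (c k k)) (d l l))))))) s) s) s))) (A (B (A (B (O (c (c l (c l l)) (c (d (c l l) (c l l)) (d (c k k) (c (d (c l l) l) (d (c k k) (c l (d (d k l) l)))))))) (O (c (c l (c l l)) (c (d (d l l) (c l l)) (d (c k k) (c (d (c l l) l) (d (c k k) (c l (d (d k l) l))))))))) (B (A (O (c (c l (c l l)) (c (d (c l l) (c l l)) (d (c k k) (c (d l l) (d (d k (d (c k k) l)) (c l l))))))) (O (c (c l (c l l)) (c (d (d (c l l) l) (c l l)) (d (c k k) (c (d l l) (d (d k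 (c k k)) (c l l)))))))) (A (O (c (c l (c l l)) (c (d (d l l) (c l l)) (d (c k k) (c (d l l) (d (d k (d (c k k) l)) (c l l))))))) (O (c (c l l) (c (d (d (c l l) l) (c l l)) (d (c k k) (c (d (c l l) l) (d (d k (c k k)) (d l l)))))))))) (A (B (O (c (c l (c l l)) (c (d (d l l) (c l l)) (d (c k k) (c (d (d l l) l) (d (c k k) (c (c l l) (d (d k (c k k)) (c l l))))))))) (O (c (c l (c l l)) (c (d (d l l) (c l l)) (d (c k k) (c (d (d l l) l) (d (c k k) (c (c l l) (d (c k k) (c l l)))))))))) (B (A (O (c (c l l) (c (d (d l l) (c l l)) (d (c k k) (c (d l l) (d (d k (d (c k k) l)) (c l l))))))) s) (A (O (c (c l l) (c (d (d l l) (c l l)) (d (c k k) (c (d l l) (d (d k (d (c k k) l)) (c l l))))))) s)))) s)) s) (A (B (A (B (A (B (A (O (c (c l l) (c (d (c l l) (c l l)) (d (c k k) (c (d l l) (d (d k l) l)))))) (O (c (c l l) (c (d (d l l) (c l l)) (d (c k k) (c (d l l) (d (d k (d (c k k) l)) (c l l)))))))) (A (O (c (c l l) (c (d (c l l) (c l l)) (d (c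 k k) (c (d l l) (d (d k l) (c l l))))))) (O (c (c l l) (c (d (d l l) (c l l)) (d (c k k) (c (d l l) (d (d k (d (c k k) l)) (c l l))))))))) (B (A (O (c (c l l) (c (d (d l l) (c l l)) (d (c k k) (c (d l l) (d (d k (d (c k k) l)) (c l l))))))) s) s)) (A (B (A (O (c (c l l) (c (d (c l l) (c l l)) (d (c k k) (c (d l l) (d (d k l) (c l l))))))) (O (c (c l l) (c (d (d l l) (c l l)) (d (c k k) (c (d l l) (d (d k (d (c k k) l)) (c l l)))))))) (A (O (c (c l l) (c (d (d l l) (c l l)) (d (c k k) (c (d l l) (d (d k (c k k)) (c l l))))))) (O (c (c l l) (c (d (d l l) (c l l)) (d (c k k) (c (d l l) (d (d k (d (c k k) l)) (c l l))))))))) s)) s) (A (B (A (B (A (O (c (c l l) (c (d (d l l) (c l l)) (d (c k k) (c (d l l) (d (d k (d (c k k) l)) (c l l))))))) s) (A (O (c (c l l) (c (d (d l l) (c l l)) (d (c k k) (c (d l l) (d (d k (d (c k k) l)) (c l l))))))) s)) s) (A (B (A (O (c (c l l) (c (d (d l l) (c l l)) (d (c k k) (c (d l l) (d (d k (d (c k k) l))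 (c l l))))))) s) (A (O (c (c l l) (c (d (c l l) (c l l)) (d (c k k) (c (d l l) (d (d k (d (c k k) l)) (c l l))))))) s)) s)) s)) s)) s)

theorem s10_r1 : Sound P10 32768 16384 0 32768 :=
  chkOut2_sound P10 KK tr10_r1 32768 16384 0 32768 (by decide +kernel)

end Vale.Agent.P154.D4.K0
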