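import Vale.Agent.P154.D4.K0.T00_r00
import Vale.Agent.P154.D4.K0.T00_r01
import Vale.Agent.P154.D4.K0.T00_r10000
import Vale.Agent.P154.D4.K0.T00_r10001
import Vale.Agent.P154.D4.K0.T00_r1001
import Vale.Agent.P154.D4.K0.T00_r10100
import Vale.Agent.P154.D4.K0.T00_r10101
import Vale.Agent.P154.D4.K0.T00_r1011000
import Vale.Agent.P154.D4.K0.T00_r1011001
import Vale.Agent.P154.D4.K0.T00_r101101
import Vale.Agent.P154.D4.K0.T00_r1011100
import Vale.Agent.P154.D4.K0.T00_r1011101
import Vale.Agent.P154.D4.K0.T00_r10111100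
import Vale.Agent.P154.D4.K0.T00_r10111101
import Vale.Agent.P154.D4.K0.T00_r10111110
import Vale.Agent.P154.D4.K0.T00_r10111111
import Vale.Agent.P154.D4.K0.T00_r110
import Vale.Agent.P154.D4.K0.T00_r11100
import Vale.Agent.P154.D4.K0.T00_r1110100
import Vale.Agent.P154.D4.K0.T00_r111010100
import Vale.Agent.P154.D4.K0.T00_r111010101
import Vale.Agent.P154.D4.K0.T00_r111010110
import Vale.Agent.P154.D4.K0.T00_r111010111
import Vale.Agent.P154.D4.K0.T00_r1110110
import Vale.Agent.P154.D4.K0.T00_r111011100
import Vale.Agent.P154.D4.K0.T00_r111011101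
import Vale.Agent.P154.D4.K0.T00_r111011110
import Vale.Agent.P154.D4.K0.T00_r1110111110
import Vale.Agent.P154.D4.K0.T00_r1110111111
import Vale.Agent.P154.D4.K0.T00_r11110
import Vale.Agent.P154.D4.K0.T00_r1111100
import Vale.Agent.P154.D4.K0.T00_r111110100
import Vale.Agent.P154.D4.K0.T00_r1111101010
import Vale.Agent.P154.D4.K0.T00_r1111101011
import Vale.Agent.P154.D4.K0.T00_r11111011
import Vale.Agent.P154.D4.K0.T00_r1111110
import Vale.Agent.P154.D4.K0.T00_r11111110
import Vale.Agent.P154.D4.K0.T00_r11111111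
import Vale.Agent.P154.D4.K0.T01_r00
import Vale.Agent.P154.D4.K0.T01_r01
import Vale.Agent.P154.D4.K0.T01_r100
import Vale.Agent.P154.D4.K0.T01_r1010
import Vale.Agent.P154.D4.K0.T01_r10110
import Vale.Agent.P154.D4.K0.T01_r10111
import Vale.Agent.P154.D4.K0.T01_r110
import Vale.Agent.P154.D4.K0.T01_r11100
import Vale.Agent.P154.D4.K0.T01_r111010
import Vale.Agent.P154.D4.K0.T01_r1110110
import Vale.Agent.P154.D4.K0.T01_r11101110
import Vale.Agent.P154.D4.K0.T01_r11101111
import Vale.Agent.P154.D4.K0.T01_r11110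
import Vale.Agent.P154.D4.K0.T01_r111110
import Vale.Agent.P154.D4.K0.T01_r111111
import Vale.Agent.P154.D4.K0.T10_r000
import Vale.Agent.P154.D4.K0.T10_r001
import Vale.Agent.P154.D4.K0.T10_r01
import Vale.Agent.P154.D4.K0.T10_r1
import Vale.Agent.P154.D4.K0.T11_r00
import Vale.Agent.P154.D4.K0.T11_r01
import Vale.Agent.P154.D4.K0.T11_r1

namespace Vale.Agent.P154.D4.K0

open Cert

theorem s00_r0 : Sound P00 0 16384 0 32768 :=
  sound_splitA P00 0 8192 16384 0 32768 rfl s00_r00 s00_r01

theorem s00_r1000 : Sound P00 32768 4096 0 16384 :=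
  sound_splitB P00 32768 4096 0 8192 16384 rfl s00_r10000 s00_r10001

theorem s00_r100 : Sound P00 32768 8192 0 16384 :=
  sound_splitA P00 32768 4096 8192 0 16384 rfl s00_r1000 s00_r1001

theorem s00_r1010 : Sound P00 32768 4096 32768 16384 :=
  sound_splitB P00 32768 4096 32768 8192 16384 rfl s00_r10100 s00_r10101

theorem s00_r101100 : Sound P00 40960 2048 32768 8192 :=
  sound_splitB P00 40960 2048 32768 4096 8192 rfl s00_r1011000 s00_r1011001

theorem s00_r10110 : Sound P00 40960 4096 32768 8192 :=
  sound_splitA P00 40960 2048 4096 32768 8192 rfl s00_r101100 s00_r101101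

theorem s00_r101110 : Sound P00 40960 2048 49152 8192 :=
  sound_splitB P00 40960 2048 49152 4096 8192 rfl s00_r1011100 s00_r1011101

theorem s00_r1011110 : Sound P00 45056 2048 49152 4096 :=
  sound_splitA P00 45056 1024 2048 49152 4096 rfl s00_r10111100 s00_r10111101

theorem s00_r1011111 : Sound P00 45056 2048 57344 4096 :=
  sound_splitA P00 45056 1024 2048 57344 4096 rfl s00_r10111110 s00_r10111111

theorem s00_r101111 : Sound P00 45056 2048 49152 8192 :=
  sound_splitB P00 45056 2048 49152 4096 8192 rfl s00_r1011110 s00_r1011111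

theorem s00_r10111 : Sound P00 40960 4096 49152 8192 :=
  sound_splitA P00 40960 2048 4096 49152 8192 rfl s00_r101110 s00_r101111

theorem s00_r1011 : Sound P00 40960 4096 32768 16384 :=
  sound_splitB P00 40960 4096 32768 8192 16384 rfl s00_r10110 s00_r10111

theorem s00_r101 : Sound P00 32768 8192 32768 16384 :=
  sound_splitA P00 32768 4096 8192 32768 16384 rfl s00_r1010 s00_r1011

theorem s00_r10 : Sound P00 32768 8192 0 32768 :=
  sound_splitB P00 32768 8192 0 16384 32768 rfl s00_r100 s00_r101

theorem s00_r11101010 : Sound P00 49152 1024 57344 4096 :=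
  sound_splitB P00 49152 1024 57344 2048 4096 rfl s00_r111010100 s00_r111010101

theorem s00_r11101011 : Sound P00 51200 1024 57344 4096 :=
  sound_splitB P00 51200 1024 57344 2048 4096 rfl s00_r111010110 s00_r111010111

theorem s00_r1110101 : Sound P00 49152 2048 57344 4096 :=
  sound_splitA P00 49152 1024 2048 57344 4096 rfl s00_r11101010 s00_r11101011

theorem s00_r111010 : Sound P00 49152 2048 49152 8192 :=
  sound_splitB P00 49152 2048 49152 4096 8192 rfl s00_r1110100 s00_r1110101

theorem s00_r11101110 : Sound P00 53248 1024 57344 4096 :=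
  sound_splitB P00 53248 1024 57344 2048 4096 rfl s00_r111011100 s00_r111011101

theorem s00_r111011111 : Sound P00 55296 1024 61440 2048 :=
  sound_splitA P00 55296 512 1024 61440 2048 rfl s00_r1110111110 s00_r1110111111

theorem s00_r11101111 : Sound P00 55296 1024 57344 4096 :=
  sound_splitB P00 55296 1024 57344 2048 4096 rfl s00_r111011110 s00_r111011111

theorem s00_r1110111 : Sound P00 53248 2048 57344 4096 :=
  sound_splitA P00 53248 1024 2048 57344 4096 rfl s00_r11101110 s00_r11101111

theorem s00_r111011 : Sound P00 53248 2048 49152 8192 :=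
  sound_splitB P00 53248 2048 49152 4096 8192 rfl s00_r1110110 s00_r1110111

theorem s00_r11101 : Sound P00 49152 4096 49152 8192 :=
  sound_splitA P00 49152 2048 4096 49152 8192 rfl s00_r111010 s00_r111011

theorem s00_r1110 : Sound P00 49152 4096 32768 16384 :=
  sound_splitB P00 49152 4096 32768 8192 16384 rfl s00_r11100 s00_r11101

theorem s00_r111110101 : Sound P00 57344 1024 61440 2048 :=
  sound_splitA P00 57344 512 1024 61440 2048 rfl s00_r1111101010 s00_r1111101011

theorem s00_r11111010 : Sound P00 57344 1024 57344 4096 :=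
  sound_splitB P00 57344 1024 57344 2048 4096 rfl s00_r111110100 s00_r111110101

theorem s00_r1111101 : Sound P00 57344 2048 57344 4096 :=
  sound_splitA P00 57344 1024 2048 57344 4096 rfl s00_r11111010 s00_r11111011

theorem s00_r111110 : Sound P00 57344 2048 49152 8192 :=
  sound_splitB P00 57344 2048 49152 4096 8192 rfl s00_r1111100 s00_r1111101

theorem s00_r1111111 : Sound P00 61440 2048 57344 4096 :=
  sound_splitA P00 61440 1024 2048 57344 4096 rfl s00_r11111110 s00_r11111111

theorem s00_r111111 : Sound P00 61440 2048 49152 8192 :=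
  sound_splitB P00 61440 2048 49152 4096 8192 rfl s00_r1111110 s00_r1111111

theorem s00_r11111 : Sound P00 57344 4096 49152 8192 :=
  sound_splitA P00 57344 2048 4096 49152 8192 rfl s00_r111110 s00_r111111

theorem s00_r1111 : Sound P00 57344 4096 32768 16384 :=
  sound_splitB P00 57344 4096 32768 8192 16384 rfl s00_r11110 s00_r11111

theorem s00_r111 : Sound P00 49152 8192 32768 16384 :=
  sound_splitA P00 49152 4096 8192 32768 16384 rfl s00_r1110 s00_r1111

theorem s00_r11 : Sound P00 49152 8192 0 32768 :=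
  sound_splitB P00 49152 8192 0 16384 32768 rfl s00_r110 s00_r111

theorem s00_r1 : Sound P00 32768 16384 0 32768 :=
  sound_splitA P00 32768 8192 16384 0 32768 rfl s00_r10 s00_r11

theorem s00_r : Sound P00 0 32768 0 32768 :=
  sound_splitA P00 0 16384 32768 0 32768 rfl s00_r0 s00_r1

theorem s01_r0 : Sound P01 0 16384 0 32768 :=
  sound_splitA P01 0 8192 16384 0 32768 rfl s01_r00 s01_r01

theorem s01_r1011 : Sound P01 40960 4096 32768 16384 :=
  sound_splitB P01 40960 4096 32768 8192 16384 rfl s01_r10110 s01_r10111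

theorem s01_r101 : Sound P01 32768 8192 32768 16384 :=
  sound_splitA P01 32768 4096 8192 32768 16384 rfl s01_r1010 s01_r1011

theorem s01_r10 : Sound P01 32768 8192 0 32768 :=
  sound_splitB P01 32768 8192 0 16384 32768 rfl s01_r100 s01_r101

theorem s01_r1110111 : Sound P01 53248 2048 57344 4096 :=
  sound_splitA P01 53248 1024 2048 57344 4096 rfl s01_r11101110 s01_r11101111

theorem s01_r111011 : Sound P01 53248 2048 49152 8192 :=
  sound_splitB P01 53248 2048 49152 4096 8192 rfl s01_r1110110 s01_r1110111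

theorem s01_r11101 : Sound P01 49152 4096 49152 8192 :=
  sound_splitA P01 49152 2048 4096 49152 8192 rfl s01_r111010 s01_r111011

theorem s01_r1110 : Sound P01 49152 4096 32768 16384 :=
  sound_splitB P01 49152 4096 32768 8192 16384 rfl s01_r11100 s01_r11101

theorem s01_r11111 : Sound P01 57344 4096 49152 8192 :=
  sound_splitA P01 57344 2048 4096 49152 8192 rfl s01_r111110 s01_r111111

theorem s01_r1111 : Sound P01 57344 4096 32768 16384 :=
  sound_splitB P01 57344 4096 32768 8192 16384 rfl s01_r11110 s01_r11111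

theorem s01_r111 : Sound P01 49152 8192 32768 16384 :=
  sound_splitA P01 49152 4096 8192 32768 16384 rfl s01_r1110 s01_r1111

theorem s01_r11 : Sound P01 49152 8192 0 32768 :=
  sound_splitB P01 49152 8192 0 16384 32768 rfl s01_r110 s01_r111

theorem s01_r1 : Sound P01 32768 16384 0 32768 :=
  sound_splitA P01 32768 8192 16384 0 32768 rfl s01_r10 s01_r11

theorem s01_r : Sound P01 0 32768 0 32768 :=
  sound_splitA P01 0 16384 32768 0 32768 rfl s01_r0 s01_r1

theorem s10_r00 : Sound P10 0 8192 0 32768 :=
  sound_splitA P10 0 4096 8192 0 32768 rfl s10_r000 s10_r001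

theorem s10_r0 : Sound P10 0 16384 0 32768 :=
  sound_splitA P10 0 8192 16384 0 32768 rfl s10_r00 s10_r01

theorem s10_r : Sound P10 0 32768 0 32768 :=
  sound_splitA P10 0 16384 32768 0 32768 rfl s10_r0 s10_r1

theorem s11_r0 : Sound P11 0 16384 0 32768 :=
  sound_splitA P11 0 8192 16384 0 32768 rfl s11_r00 s11_r01

theorem s11_r : Sound P11 0 32768 0 32768 :=
  sound_splitA P11 0 16384 32768 0 32768 rfl s11_r0 s11_r1

end Vale.Agent.P154.D4.K0
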